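import Crest.Agent.X212.Lt44.Simp_Mg
import Crest.Agent.X212.Tw9.Univ_Mg
import Crest.Agent.X212.Lad50.Sd
import Crest.Agent.X212.Tw9.H1

/-!
# Row 212, layer T: the loop theorem from its two remaining inputs

`ltc`, `lt`: the loop theorem (cocycle form, then the universal form) from the recognition of discs
(`DiscStmt`) and the combinatorial descent of normal discs (`Dsc37.DescStmt`).
-/

namespace Crest.Agent.X212.Geo46

theorem inS : InStmt := inStmt Lt44.simpStmt Gsd39.sdStmt Gcx52.pushStmt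

theorem realS (hD : DiscStmt) : RealStmt :=
  Lad50.real_of Gsd39.sdStmt Loc49.locStmt Gcx52.cxStmt Tw9.h1Stmt hD

theorem ltcS (h : Dsc37.DescStmt) : Dsc37.LtcStmt :=
  Lt44.tower Lad50.okSubStmt Lad50.dcSubStmt h Lt44.top

theorem ltc (hD : DiscStmt) (h : Dsc37.DescStmt) : Tw9.LTc :=
  ltc_of Gsd39.sdStmt Gcx52.pushStmt inS Loc49.locStmt (ltcS h) (realS hD)

theorem lt (hD : DiscStmt) (h : Dsc37.DescStmt) : Lev33.LTStmt := Tw9.lt_of_ltc (ltc hD h)

end Crest.Agent.X212.Geo46
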